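import Vale.Agent.P183CF.CB3
import Vale.Agent.P183NC.NR
import Vale.Agent.P183XC.SL
import Mathlib.RingTheory.IntegralDomain
import Mathlib.FieldTheory.Finite.Basic
import Mathlib.LinearAlgebra.Matrix.ToLin

/-!
Fields of scalars, the derived series of the group of similitudes, and matrix representations.
-/

namespace Vale.Agent.P183NK

open Subgroup Vale.Agent.P183A Vale.Agent.P183XC
open scoped commutatorElement

/-- The derived group of a group that normalises a cyclic group centralises it. -/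
theorem cm_comm_of_cyclic {G : Type} [Group G] {X U : Subgroup G} [IsCyclic U] (h : Nm X U) :
    Cm ⁅X, X⁆ U := by
  obtain ⟨g, hg⟩ := IsCyclic.exists_generator (α := U)
  have key : ∀ a ∈ X, ∃ k : ℤ, ∀ u ∈ U, a * u * a⁻¹ = u ^ k := fun a ha => by
    obtain ⟨k, hk⟩ := mem_zpowers_iff.1 (hg ⟨_, h a ha g g.2⟩)
    refine ⟨k, fun u hu => ?_⟩
    obtain ⟨l, hl⟩ := mem_zpowers_iff.1 (hg ⟨u, hu⟩)
    have h1 : (g : G) ^ k = a * g * a⁻¹ := by simpa using congrArg Subtype.val hk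
    have h2 : (g : G) ^ l = u := by simpa using congrArg Subtype.val hl
    rw [← h2, ← conj_zpow, ← h1, ← zpow_mul, ← zpow_mul, mul_comm]
  refine cm_iff.2 (commutator_le.2 fun a ha b hb => mem_centralizer_iff.2 fun u hu => ?_)
  obtain ⟨k, hk⟩ := key a ha
  obtain ⟨l, hl⟩ := key b hb
  have hv := h _ (X.inv_mem (X.mul_mem hb ha)) u hu
  generalize hw : (b * a)⁻¹ * u * (b * a)⁻¹⁻¹ = w at hv
  have e1 : a * b * w * (a * b)⁻¹ = b * a * w * (b * a)⁻¹ := by
    calc a * b * w * (a * b)⁻¹ = a * (b * w * b⁻¹) * a⁻¹ := by group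
      _ = (w ^ k) ^ l := by rw [hl w hv, ← conj_zpow, hk w hv]
      _ = b * (a * w * a⁻¹) * b⁻¹ := by
        rw [hk w hv, ← conj_zpow, hl w hv, ← zpow_mul, ← zpow_mul, mul_comm]
      _ = _ := by group
  rw [← hw] at e1
  rw [commutatorElement_def]
  calc u * (a * b * a⁻¹ * b⁻¹) = b * a * ((b * a)⁻¹ * u * (b * a)⁻¹⁻¹) * (b * a)⁻¹ *
        (a * b * a⁻¹ * b⁻¹) := by group
    _ = _ := by rw [← e1]; group

namespace FS

variable {p : ℕ} [Fact p.Prime] {V : Type} [AddCommGroup V] [Module (ZMod p) V] {S : FS p V}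
  {D Z : S.NR}

/-- A field of scalars as a type. -/
def Fld (h : S.Scal D 1) (_ : S.IsFld D 1) : Type := D.toSubring h.mem

namespace Fld

variable (h : S.Scal D 1) (hf : S.IsFld D 1)

instance ring : Ring (Fld h hf) := inferInstanceAs (Ring (D.toSubring h.mem))

/-- The inclusion into the endomorphism ring. -/
def val : Fld h hf →+* S.E := (D.toSubring h.mem).subtype

theorem val_inj : Function.Injective (val h hf) := Subtype.val_injective

theorem val_mem (x : Fld h hf) : val h hf x ∈ D := x.2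

theorem isField : IsField (Fld h hf) where
  exists_pair_ne := ⟨1, 0, fun e => h.ne (congrArg (val h hf) e)⟩
  mul_comm x y := val_inj h hf (h.comm _ x.2 _ y.2)
  mul_inv_cancel {x} hx :=
    let ⟨y, hy, e⟩ := hf _ x.2 fun e => hx (val_inj h hf e)
    ⟨⟨y, hy⟩, val_inj h hf e⟩

noncomputable instance : Field (Fld h hf) := (isField h hf).toField

instance [Finite V] : Finite (Fld h hf) := Finite.of_injective _ (val_inj h hf)

theorem card : Nat.card (Fld h hf) = Nat.card D := rfl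

instance : CharP (Fld h hf) p := by
  refine (CharP.charP_iff_prime_eq_zero Fact.out).2 (val_inj h hf ?_)
  rw [map_natCast, map_zero]
  ext v
  simp [← Nat.cast_smul_eq_nsmul (ZMod p)]

noncomputable instance : Module (Fld h hf) V := Module.compHom V (val h hf)

theorem smul_def (c : Fld h hf) (v : V) : c • v = val h hf c v := rfl

end Fld

theorem sym_isFld {e : S.E} (h : S.Scal D e) : S.IsFld (S.sym D) e := fun _ hx h0 => h.inv_sym hx h0

variable [Finite V]

theorem sca_cyclic (h : S.Scal D 1) (hf : S.IsFld D 1) : IsCyclic (S.sca D) :=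
  isCyclic_of_injective_ringHom (R := Fld h hf)
    { toFun := fun g => ⟨g.1.1, (mem_sca h.mem).1 g.2⟩
      map_one' := rfl
      map_mul' := fun _ _ => rfl } fun _ _ e =>
    Subtype.ext (Units.ext (congrArg (Fld.val h hf) e))

theorem comm_of_cm_sca (h : S.Scal D 1) (hf : S.IsFld D 1) {g : S.Eˣ}
    (hg : ∀ u ∈ S.sca D, g * u = u * g) {z : S.E} (hz : z ∈ D) : g.1 * z = z * g.1 := by
  by_cases h0 : z = 0
  · simp [h0]
  obtain ⟨y, hy, e⟩ := hf z hz h0
  exact congrArg Units.val (hg ⟨z, y, e, by rw [h.comm y hy z hz, e]⟩ ((mem_sca h.mem).2 hz))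

omit [Finite V] in
theorem Spl.eq_or (h : S.Scal Z 1) {η η' : S.E} (s : S.Spl Z 1 η) (s' : S.Spl Z 1 η') :
    η' = η ∨ η' = S.st η := by
  have c := h.comm _ s'.mem _ s.mem
  have hi : η' * η * (η' * η) = η' * η := by
    rw [mul_assoc, ← mul_assoc η, ← c, mul_assoc, s.idem h, ← mul_assoc, s'.idem h]
  rcases h.idem_spl (mul_mem s'.mem s.mem) hi with e | e | e
  · right
    have e1 : S.st η * S.st η' = 0 := by rw [← st_mul, e, st_zero]
    have e2 : η' * S.st η = η' := by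
      conv_rhs => rw [← mul_one η', ← s.add, mul_add, e, zero_add]
    conv_rhs => rw [← mul_one (S.st η), ← s'.add, mul_add, e1, add_zero,
      ← h.comm _ s'.mem _ (h.star _ s.mem), e2]
  · exfalso
    apply (s.star h).ne h
    rw [← one_mul (S.st η), ← e, mul_assoc, s.mul, mul_zero]
  · left
    have e1 := e.add
    rw [st_mul] at e1
    have e2 : η * (η' * η) = η := by
      conv_rhs => rw [← mul_one η, ← e1, mul_add, ← mul_assoc η (S.st η), s.mul, zero_mul, add_zero]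
    have e3 : η' * η * η' = η' := by
      conv_rhs => rw [← one_mul η', ← e1, add_mul, mul_assoc (S.st η), s'.mul' h, mul_zero, add_zero]
    rw [c, ← mul_assoc, s.idem h] at e2
    rw [mul_assoc, ← c, ← mul_assoc, s'.idem h] at e3
    exact e3.symm.trans (c.trans e2)

variable (hZ : S.Scal Z 1)
include hZ

theorem nm_gam_sym : Nm (S.gam Z) (S.sca (S.sym Z)) := fun g hg k hk => by
  rw [mem_sca hZ.e_sym] at hk ⊢
  refine hZ.mem_sym.2 ⟨gam_Z hZ hg hk.1, ?_⟩
  exact (gam_st hZ hg (hZ.le_cent hk.1)).trans (by rw [hk.2.1]; rfl)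

/-- The derived group of the group of similitudes centralises the scalars. -/
theorem comm_gam_cent {g : S.Eˣ} (hg : g ∈ ⁅S.gam Z, S.gam Z⁆) : g.1 ∈ S.cent Z 1 := by
  rw [mem_cent_one]
  rcases hZ.cases with hf | ⟨η, s⟩
  · have := sca_cyclic hZ hf
    exact fun z hz => comm_of_cm_sca hZ hf (cm_comm_of_cyclic (nm_gam_sca hZ) g hg) hz
  have := sca_cyclic hZ.sym_scal (sym_isFld hZ)
  have h1 : ∀ z ∈ S.sym Z, g.1 * z = z * g.1 := fun z hz =>
    comm_of_cm_sca hZ.sym_scal (sym_isFld hZ) (cm_comm_of_cyclic (nm_gam_sym hZ) g hg) hz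
  have h2 : ∀ a ∈ S.gam Z, (a.1 * η * a⁻¹.1 = η ∧ a.1 * S.st η * a⁻¹.1 = S.st η) ∨
      (a.1 * η * a⁻¹.1 = S.st η ∧ a.1 * S.st η * a⁻¹.1 = η) := fun a ha => by
    have e := gam_st hZ ha (hZ.le_cent s.mem)
    refine (s.eq_or hZ (η' := a.1 * η * a⁻¹.1) ⟨gam_Z hZ ha s.mem, ?_, ?_⟩).imp
      (fun k => ⟨k, by rw [← e, k]⟩) fun k => ⟨k, by rw [← e, k, st_st]⟩
    · rw [e, ← add_mul, ← mul_add, s.add, mul_one, Units.mul_inv]
    · rw [e, ← conj_mul, s.mul, mul_zero, zero_mul]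
  let C : Subgroup S.Eˣ :=
    { carrier := {a | a.1 * η * a⁻¹.1 = η}
      one_mem' := by simp
      mul_mem' := fun {a b} ha hb => by
        have : (a * b).1 * η * (a * b)⁻¹.1 = a.1 * (b.1 * η * b⁻¹.1) * a⁻¹.1 := by simp [mul_assoc]
        exact this.trans (by rw [hb, ha])
      inv_mem' := fun {a} ha => by
        have : a⁻¹.1 * (a.1 * η * a⁻¹.1) * a⁻¹⁻¹.1 = η := by simp [mul_assoc]
        rwa [ha] at this }
  have h3 : ⁅S.gam Z, S.gam Z⁆ ≤ C := commutator_le.2 fun a ha b hb => by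
    have e : ⁅a, b⁆.1 * η * ⁅a, b⁆⁻¹.1 =
        a.1 * (b.1 * (a⁻¹.1 * (b⁻¹.1 * η * b⁻¹⁻¹.1) * a⁻¹⁻¹.1) * b⁻¹.1) * a⁻¹.1 := by
      simp [commutatorElement_def, mul_assoc]
    have ia : ∀ {a : S.Eˣ} {x y : S.E}, a.1 * x * a⁻¹.1 = y → a⁻¹.1 * y * a⁻¹⁻¹.1 = x := by
      rintro a x _ rfl
      simp [mul_assoc]
    show _ = η
    rw [e]
    rcases h2 a ha with ⟨a1, a2⟩ | ⟨a1, a2⟩ <;> rcases h2 b hb with ⟨b1, b2⟩ | ⟨b1, b2⟩
    · rw [ia b1, ia a1, b1, a1]
    · rw [ia b2, ia a2, b2, a1]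
    · rw [ia b1, ia a2, b2, a2]
    · rw [ia b2, ia a1, b1, a2]
  have h4 : g.1 * η = η * g.1 := by
    have : g.1 * η * g⁻¹.1 = η := h3 hg
    conv_rhs => rw [← this]
    simp [mul_assoc]
  have h5 : g.1 * S.st η = S.st η * g.1 := by
    rw [eq_sub_of_add_eq' s.add, mul_sub, sub_mul, h4, mul_one, one_mul]
  intro z hz
  obtain ⟨a, ha, b, hb, rfl⟩ := s.decomp hZ hz
  rw [mul_add, add_mul, ← mul_assoc, h1 a ha, ← mul_assoc, h1 b hb, mul_assoc, h4, mul_assoc b, h5,
    mul_assoc, mul_assoc]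

theorem gam_q_comm {g k : S.Eˣ} (hg : g ∈ S.gam Z) (hk : k ∈ S.gam Z) (hg' : g.1 ∈ S.cent Z 1)
    (hk' : k.1 ∈ S.cent Z 1) (v : V) : S.q (g.1 (k.1 v)) = S.q (k.1 (g.1 v)) := by
  have key : ∀ {g : S.Eˣ}, g ∈ S.gam Z → ∃ (n : ℕ) (c : Fin n → ZMod p) (z : Fin n → S.E),
      (∀ i, z i ∈ Z) ∧ ∀ v, S.q (g.1 v) = ∑ i, c i * S.q (z i v) := fun {g} hg => by
    obtain ⟨n, c, f, e⟩ := Submodule.mem_span_set'.1 ((mem_gam hZ.mem).1 hg).2.2
    choose z hz hz' using fun i => (f i).2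
    exact ⟨n, c, z, hz, fun v => by simp [← congrFun e v, hz']⟩
  have cm : ∀ {x z : S.E}, x ∈ S.cent Z 1 → z ∈ Z → ∀ v, z (x v) = x (z v) := fun hx hz v =>
    (congrArg (fun f : S.E => f v) (hx.2.2 _ hz)).symm
  obtain ⟨n, c, z, hz, e⟩ := key hg
  obtain ⟨n', c', z', hz', e'⟩ := key hk
  rw [e, e']
  simp only [cm hk' (hz _), cm hg' (hz' _), e, e', Finset.mul_sum]
  rw [Finset.sum_comm]
  refine Finset.sum_congr rfl fun j _ => Finset.sum_congr rfl fun i _ => ?_
  rw [cm (hZ.le_cent (hz i)) (hz' j), mul_left_comm]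

/-- The second derived group of the group of similitudes consists of isometries. -/
theorem comm2_gam_le : ⁅⁅S.gam Z, S.gam Z⁆, ⁅S.gam Z, S.gam Z⁆⁆ ≤ S.iso (S.cent Z 1) := by
  refine commutator_le.2 fun a ha b hb => mem_iso.2 ⟨sub_mem (comm_gam_cent hZ
    (commutator_le_self _ (commutator_mem_commutator ha hb))) (one_mem_cent _), ?_, fun v => ?_⟩
  · have mu : ∀ {g : S.Eˣ}, g ∈ ⁅S.gam Z, S.gam Z⁆ → ∀ {k : S.Eˣ}, k ∈ ⁅S.gam Z, S.gam Z⁆ →
        S.st (g * k).1 * (g * k).1 = S.st g.1 * g.1 * (S.st k.1 * k.1) := fun {g} hg k hk => by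
      have c := (hZ.toLoc.cent.star _ (comm_gam_cent hZ hk)).2.2 _
        (gam_mu hZ (commutator_le_self _ hg))
      rw [Units.val_mul, st_mul, ← mul_assoc (S.st g.1 * g.1), ← c]
      simp only [mul_assoc]
    have i1 := mu ha (inv_mem ha)
    have i2 := mu hb (inv_mem hb)
    rw [mul_inv_cancel, Units.val_one, st_one, one_mul] at i1 i2
    have m := fun {g} (hg : g ∈ ⁅S.gam Z, S.gam Z⁆) => gam_mu hZ (commutator_le_self _ hg)
    rw [commutatorElement_def, mu (mul_mem (mul_mem ha hb) (inv_mem ha)) (inv_mem hb),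
      mu (mul_mem ha hb) (inv_mem ha), mu ha hb, mul_assoc (S.st a.1 * a.1),
      hZ.comm _ (m hb) _ (m (inv_mem ha)), ← mul_assoc (S.st a.1 * a.1), ← i1, one_mul, ← i2]
  · have := gam_q_comm hZ (commutator_le_self _ ha) (commutator_le_self _ hb)
      (comm_gam_cent hZ ha) (comm_gam_cent hZ hb) (a⁻¹.1 (b⁻¹.1 v))
    simp only [u_app_inv] at this
    exact this

/-- A group of `Z`-linear units has a faithful matrix representation of degree at most `2 n`. -/
theorem exists_matrix {n : ℕ} (hr : S.Rank Z 1 n) (X : Subgroup S.Eˣ)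
    (hX : ∀ g ∈ X, g.1 ∈ S.cent Z 1) : LinDim p (4 * n ^ 2) (X ⧸ center X) := by
  let F := Fld hZ.sym_scal (sym_isFld hZ)
  have : Module.Finite F V := Module.Finite.of_finite
  let ρ : X →* Module.End F V :=
    { toFun := fun g =>
        { toFun := g.1.1
          map_add' := map_add _
          map_smul' := fun c v => congrArg (fun f : S.E => f v) ((hX g g.2).2.2 _ c.2.1) }
      map_one' := rfl
      map_mul' := fun _ _ => rfl }
  have hρ : Function.Injective ρ := fun a b e =>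
    Subtype.ext (Units.ext (LinearMap.ext fun v => congrArg (fun f : Module.End F V => f v) e))
  have h1 := linDim_modZ p ((LinearMap.toMatrixAlgEquiv (Module.finBasis F V)).toMonoidHom.comp ρ)
    ((LinearMap.toMatrixAlgEquiv (Module.finBasis F V)).injective.comp hρ)
  refine h1.mono ?_
  have h2 : Nat.card V = Nat.card F ^ Module.finrank F V := Module.natCard_eq_pow_finrank
  have h3 : Nat.card V = Nat.card Z ^ n := by
    rw [← hr, LinearMap.range_eq_top.2 (show Function.Surjective (1 : S.E) from fun v => ⟨v, rfl⟩)]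
    exact (Nat.card_congr Submodule.topEquiv.toEquiv).symm
  have h4 : Nat.card (S.sym Z) ^ Module.finrank F V ≤ Nat.card (S.sym Z) ^ (2 * n) := by
    rw [pow_mul]
    exact (h2.symm.trans h3).le.trans (Nat.pow_le_pow_left hZ.card_le_sq n)
  have h5 := (Nat.pow_le_pow_iff_right hZ.two_le_card_sym).1 h4
  rw [Fintype.card_fin]
  nlinarith

end FS

end Vale.Agent.P183NK
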