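import Vale.Agent.P183CF.CB3
import Vale.Agent.P183NK.CSI
import Vale.Agent.P183XC.SL

/-!
The interface for the special linear subgroup of a classical group.
-/

namespace Vale.Agent.P183NK

/-- In rank `n ≥ c` the group `Ω` contains an image of `SL_k(K)`, `k = n / 4`, where `K` is a finite
field of the same characteristic with at least as many elements as the field of symmetric scalars;
only central elements become scalars. -/
def AFF (c : ℕ) : Prop := AllFS fun p _ _ _ _ S =>
  ∀ (Z : S.NR) (n : ℕ), S.Scal Z 1 → S.Rank Z 1 n → c ≤ n →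
    ∃ (K : Type) (_ : Field K) (_ : Finite K) (_ : CharP K p)
      (ψ : Matrix.SpecialLinearGroup (Fin (n / 4)) K →* S.Eˣ),
      Nat.card (S.sym Z) ≤ Nat.card K ∧ (∀ g, ψ g ∈ S.om (S.cent Z 1)) ∧
      ∀ g, (ψ g).1 ∈ Z → g ∈ Subgroup.center _

end Vale.Agent.P183NK
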