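import Vale.Agent.P183CX.WCl
import Vale.Agent.P183CX.Aff

/-!
Reduction of the final step for classical groups to one characteristic.
-/

namespace Vale.Agent.P183NK

open Subgroup Vale.Agent.P183A Vale.Agent.P183XC

/-- A tree is monochromatic on its first levels or has a node of another colour. -/
theorem MT.split {L : Type} [Lattice L] {m : ℕ} {P : L → L → Prop} (P' : L → L → Prop) (j₂ : ℕ) :
    ∀ (j₁ : ℕ) {a b : L}, MT m P (j₂ + j₁) a b →
      MT m P' j₁ a b ∨ ∃ u y, a ≤ u ∧ y < b ∧ P u y ∧ ¬ P' u y ∧ MT m P j₂ u y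
  | 0, _, _, h => Or.inl h.lt
  | j₁ + 1, a, b, ⟨a', b', c, z, u, h1, h2, h3, h4, h5⟩ => by
    refine or_iff_not_imp_right.2 fun hn => ⟨a', b', c, z, u, h1, h2, h3, h4, fun i => ?_⟩
    obtain ⟨k1, k2, k3, k4, k5⟩ := h5 i
    have l1 := h1.trans k2
    have l2 := k5.lt.trans_le h3
    refine ⟨k1, k2, by_contra fun k => hn ⟨_, _, l1, l2, k3, k, k4.of_le (Nat.le_add_right _ _)⟩,
      (MT.split P' j₂ j₁ k4).resolve_right ?_, (MT.split P' j₂ j₁ k5).resolve_right ?_⟩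
    · rintro ⟨v, y, e1, e2, e⟩
      exact hn ⟨v, y, l1.trans e1, e2.trans l2, e⟩
    · rintro ⟨v, y, e1, e2, e⟩
      exact hn ⟨v, y, l1.trans (k4.lt.le.trans e1), e2.trans_le h3, e⟩

theorem sq_lt_two_pow {u : ℕ} (hu : 24 ≤ u) : 2048 * (u + 2) ^ 2 + 20 ≤ 2 ^ u := by
  induction u, hu using Nat.le_induction with
  | base => norm_num
  | succ u hu ih => rw [pow_succ 2]; nlinarith

theorem cross_num {qX qY nX nY nZ : ℕ} (hX : 2 ≤ qX) (hY : 2 ≤ qY) (h1 : 22 ≤ nX)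
    (h2 : 2 ^ 24 ≤ nY) (a : qX ^ (nX / 4 - 2) ≤ 4 * nY ^ 2) (b : qY ^ (nY / 4 - 2) ≤ 4 * nZ ^ 2)
    (c : nZ ^ 2 ≤ qX ^ (2 * (nX * nX))) : False := by
  set k := nX / 4 - 2 with hk
  set u := Nat.log 2 nY with hu
  have u1 : 24 ≤ u := Nat.le_log_of_pow_le (by omega) h2
  have u2 : 2 ^ u ≤ nY := Nat.pow_log_le_self 2 (by omega)
  have u3 : nY < 2 ^ (u + 1) := Nat.lt_pow_succ_log_self (by omega) _
  have u4 : 4 * nY ^ 2 ≤ 2 ^ (2 * (u + 2)) := by
    calc 4 * nY ^ 2 ≤ 4 * (2 ^ (u + 1)) ^ 2 :=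
          Nat.mul_le_mul_left _ (Nat.pow_le_pow_left u3.le _)
      _ = _ := by ring
  have k1 : k ≤ 2 * (u + 2) := (Nat.pow_le_pow_iff_right (by omega : 1 < 2)).1
    ((Nat.pow_le_pow_left hX k).trans (a.trans u4))
  have k2 : nX ≤ 8 * k := by omega
  have k3 : qX ^ (2 * (nX * nX)) ≤ 2 ^ (2 * (u + 2) * (128 * k)) := by
    calc qX ^ (2 * (nX * nX)) ≤ qX ^ (k * (128 * k)) :=
          Nat.pow_le_pow_right (by omega) (by nlinarith [Nat.mul_le_mul k2 k2])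
      _ ≤ _ := by rw [pow_mul, pow_mul 2 (2 * (u + 2))]; exact Nat.pow_le_pow_left (a.trans u4) _
  have k4 : 2 ^ (nY / 4 - 2) ≤ 2 ^ (2 * (u + 2) * (128 * k) + 2) := by
    rw [pow_add]
    have := (Nat.pow_le_pow_left hY _).trans b
    omega
  have k5 := (Nat.pow_le_pow_iff_right (by omega : 1 < 2)).1 k4
  have k6 := sq_lt_two_pow u1
  have k7 : 2 * (u + 2) * (128 * k) ≤ 512 * (u + 2) ^ 2 := by nlinarith
  omega

namespace Model

variable {G : Type} [Group G] {T : Subgroup G} (M : Model T)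

theorem linDim (hc : centralizer (T : Set G) ⊓ T = ⊥) : LinDim M.p (4 * M.n ^ 2) T := by
  have e : M.θ.ker = center M.Ω := by
    ext ω
    rw [MonoidHom.mem_ker, mem_center_iff]
    refine ⟨fun h g => Subtype.ext (Units.ext ((M.Ω_mem g.2).2.2 _ ((M.ker ω).1 h))), fun h => ?_⟩
    refine mem_bot.1 (hc.le ⟨mem_centralizer_iff.2 fun t ht => ?_, M.θ_mem ω⟩)
    obtain ⟨g, rfl⟩ := M.exists_θ ht
    rw [← map_mul, h g, map_mul]
  let f := ((MulEquiv.subgroupCongr M.range.symm).trans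
    (QuotientGroup.quotientKerEquivRange M.θ).symm).trans (QuotientGroup.quotientMulEquivOfEq e)
  exact (FS.exists_matrix M.scal M.rank M.Ω fun _ => M.Ω_mem).of_inj f.toMonoidHom f.injective

theorem cross_le {c : ℕ} (hA : AFF c) (h1 : c ≤ M.n) (h2 : 8 ≤ M.n) {T' : Subgroup G}
    (M' : Model T') (hT : T ≤ T') (hc : centralizer (T' : Set G) ⊓ T' = ⊥) (hp : M.p ≠ M'.p) :
    Nat.card (M.S.sym M.Z) ^ (M.n / 4 - 2) ≤ 4 * M'.n ^ 2 := by
  obtain ⟨K, _, _, _, ψ, k1, k2, k3⟩ := hA M.p M.V M.S M.Z M.n M.scal M.rank h1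
  have h3 : HasSL (M.n / 4) K T' :=
    ⟨(M.θ.comp (ψ.codRestrict _ k2)).codRestrict _ fun g => hT (M.θ_mem _), fun g hg =>
      k3 g ((M.ker (ψ.codRestrict _ k2 g)).1 (congrArg Subtype.val hg))⟩
  exact (Nat.pow_le_pow_left k1 _).trans (h3.cross (by omega)
    (fun h => hp ((Nat.prime_dvd_prime_iff_eq M'.hp.out M.hp.out).1 h).symm) (M'.linDim hc))

theorem card_A {c : ℕ} (hB : BAS c) : Nat.card M.A = Nat.card M.Z ^ (M.n * M.n) := by
  obtain ⟨-, a, b, -⟩ := hB M.p M.V M.S M.Z 1 M.n M.scal M.rank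
  rw [FS.Deg, a] at b
  exact b

theorem card_le {c : ℕ} (hB : BAS c) :
    Nat.card T ≤ Nat.card (M.S.sym M.Z) ^ (2 * (M.n * M.n)) := by
  have h1 : Nat.card T ≤ Nat.card M.Ω :=
    Nat.card_le_card_of_surjective (fun ω => (⟨M.θ ω, M.θ_mem ω⟩ : T)) fun t =>
      let ⟨ω, e⟩ := M.exists_θ t.2
      ⟨ω, Subtype.ext e⟩
  have h2 : Nat.card M.Ω ≤ Nat.card M.A :=
    Nat.card_le_card_of_injective (fun ω => (⟨ω.1.1, M.Ω_mem ω.2⟩ : M.A)) fun _ _ e =>
      Subtype.ext (Units.ext (congrArg Subtype.val e))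
  rw [M.card_A hB] at h2
  rw [pow_mul]
  exact h1.trans (h2.trans (Nat.pow_le_pow_left M.scal.card_le_sq _))

/-- A subgroup whose preimage spans the algebra has at least `n ^ 2` elements. -/
theorem le_card [Finite G] {c : ℕ} (hB : BAS c) {X : Subgroup G} (hX : X ≤ T) (hF : M.Full X) :
    M.n ^ 2 ≤ Nat.card X := by
  classical
  have := Fintype.ofFinite X
  choose s hs using fun x : X => M.exists_θ (hX x.2)
  let Φ : (X → M.Z) →+ M.S.E := AddMonoidHom.mk' (fun z => ∑ x, (z x).1 * (s x).1.1) fun a b => by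
    simp [add_mul, Finset.sum_add_distrib]
  have h1 : ∀ x ∈ M.A, x ∈ Φ.range := fun x hx => by
    rw [← hF.1, FS.spanR, NonUnitalSubring.mem_closure_iff] at hx
    refine (AddSubgroup.closure_le _).2 (fun y hy => ?_) hx
    have h2 : ∃ g ∈ M.hat X, y = g.1 := by
      induction hy using Subsemigroup.closure_induction with
      | mem y hy => exact hy
      | mul _ _ _ _ a b =>
        obtain ⟨g, hg, rfl⟩ := a
        obtain ⟨k, hk, rfl⟩ := b
        exact ⟨g * k, mul_mem hg hk, rfl⟩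
    obtain ⟨g, hg, rfl⟩ := h2
    obtain ⟨ω, hω, rfl⟩ := commutator_le_self _ hg
    refine ⟨Pi.single ⟨M.θ ω, hω⟩ ⟨(ω * (s ⟨M.θ ω, hω⟩)⁻¹).1.1, (M.ker _).1 (by
      rw [map_mul, map_inv, hs, mul_inv_cancel])⟩, ?_⟩
    show ∑ x, _ = _
    rw [Finset.sum_eq_single ⟨M.θ ω, hω⟩ (fun x _ hx => by simp [Pi.single_eq_of_ne hx]) (by simp)]
    simp
  have h2 : Nat.card M.A ≤ Nat.card (X → M.Z) :=
    (Nat.card_le_card_of_injective (fun x : M.A => (⟨x.1, h1 x x.2⟩ : Φ.range)) fun _ _ e =>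
      Subtype.ext (congrArg (fun y : Φ.range => y.1) e)).trans
      (Nat.card_le_card_of_surjective _ Φ.rangeRestrict_surjective)
  rw [M.card_A hB, Nat.card_fun] at h2
  rw [sq]
  exact (Nat.pow_le_pow_iff_right M.scal.two_le_card).1 h2

end Model

theorem cross {c c' : ℕ} (hB : BAS c) (hA : AFF c') : Cross := by
  refine ⟨c' + 2 ^ 24, fun d m j hd hm hF => ⟨j + j + 1, ?_⟩⟩
  rintro G _ _ H T x b hR ⟨a', b', col, z, u, h1, -, h3, -, h5⟩
  obtain ⟨-, k2, ⟨-, MZ, dZ, fZ⟩, k4, k5⟩ := h5 ⟨0, hm⟩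
  have xu := h1.trans k2
  have zb := k5.lt.le.trans h3
  obtain h | ⟨u1, Y, l1, l2, ⟨-, MY, dY, fY⟩, n1, t1⟩ :=
    k4.split (fun u z => True ∧ GenClP d MZ.p G H u z) j j
  · exact hF _ G H T x b hR (h.widen xu zb)
  have yb := l2.le.trans zb
  obtain h | ⟨u2, X, r1, r2, ⟨-, MX, dX, fX⟩, n2, t2⟩ :=
    MT.split (fun u z => True ∧ GenClP d MY.p G H u z) 0 j (by rwa [zero_add])
  · exact hF _ G H T x b hR (h.widen (xu.trans l1) yb)
  have uX := l1.trans (r1.trans t2.lt.le)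
  have mono : ∀ {K K'}, x ≤ K → K ≤ K' → K' ≤ b → EE H K ≤ EE H K' := fun a1 a2 a3 =>
    EE_mono (hR.1.nomod a1 (a2.trans a3)) (hR.1.nomod (a1.trans a2) a3) a2
  have cen : ∀ {K}, x ≤ K → K ≤ b → centralizer (EE H K : Set G) ⊓ EE H K = ⊥ := fun a1 a2 =>
    le_bot_iff.1 ((inf_le_inf_left _ ((mono a1 a2 le_rfl).trans hR.2.1)).trans
      (hR.2.2.2 _ a1 a2).2.le)
  have xX := xu.trans uX
  have xY := xX.trans r2.le
  exact cross_num MX.scal.two_le_card_sym MY.scal.two_le_card_sym (by omega) (by omega)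
    (MX.cross_le hA (by omega) (by omega) MY (mono xX r2.le yb) (cen xY yb)
      fun e => n2 ⟨trivial, MX, dX, e, fX⟩)
    (MY.cross_le hA (by omega) (by omega) MZ (mono xY l2.le zb) (cen (xY.trans l2.le) zb)
      fun e => n1 ⟨trivial, MY, dY, e, fY⟩)
    ((MZ.le_card hB (mono xu k4.lt.le zb) fZ).trans ((card_le_of_le
      (mono xu uX (r2.le.trans yb))).trans (MX.card_le hB)))

end Vale.Agent.P183NK
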