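import Vale.Agent.P183CF.RealEx
import Vale.Agent.P183CF.Frame
import Vale.Agent.P183CX.Cross
import Vale.Agent.P092.H899.Simple

/-!
The special linear subgroup of a classical group: Levi subgroups of hyperbolic frames.
-/

set_option autoImplicit false
set_option linter.all false

namespace Vale.Agent.P183CX

open Vale.Agent.P183NK Vale.Agent.P183CF Module Matrix Subgroup
open scoped commutatorElement

/-- `SL_k` is perfect for `k ≥ 3` -/
theorem sl_perf {F : Type} [Field F] {k : ℕ} (hk : 3 ≤ k) :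
    commutator (SpecialLinearGroup (Fin k) F) = ⊤ := by
  have : Nontrivial (Fin k) := Fin.nontrivial_iff_two_le.2 (by omega)
  refine P092.H899.eq_top_of_e _ fun i j hij c => ?_
  obtain ⟨l, hl⟩ : (({i, j} : Finset (Fin k))ᶜ).Nonempty := by
    rw [← Finset.card_pos, Finset.card_compl, Fintype.card_fin]
    have := Finset.card_le_two (a := i) (b := j)
    omega
  simp only [Finset.mem_compl, Finset.mem_insert, Finset.mem_singleton, not_or] at hl
  have h1 : i ≠ l := Ne.symm hl.1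
  have h2 : l ≠ j := hl.2
  have e : SpecialLinearGroup.transvection hij c =
      ⁅SpecialLinearGroup.transvection h1 c, SpecialLinearGroup.transvection h2 (1 : F)⁆ := by
    rw [commutatorElement_def, eq_mul_inv_iff_mul_eq, eq_mul_inv_iff_mul_eq]
    apply Subtype.ext
    show (1 + single i j c) * (1 + single l j 1) * (1 + single i l c) =
      (1 + single i l c) * (1 + single l j (1 : F))
    simp only [mul_add, add_mul,
      mul_one, one_mul, single_mul_single_same, single_mul_single_of_ne _ _ _ _ hij.symm,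
      single_mul_single_of_ne _ _ _ _ h2.symm, zero_mul, add_zero]
    abel
  rw [e]
  exact commutator_mem_commutator (mem_top _) (mem_top _)

section levi

variable {F V : Type} [Field F] [AddCommGroup V] [Module F V] (φ : Form F V) {ι : Type}
  [Fintype ι] [DecidableEq ι] (e f : ι → V)

/-- the component orthogonal to a frame -/
def rest (x : V) : V := x - (∑ i, φ.ca f x i • e i + ∑ i, φ.cc e x i • f i)

/-- the map acting by `m` on the span of `e`, by `m'` on the span of `f`, trivially on the rest -/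
def lv (m m' : Matrix ι ι F) : End F V where
  toFun x := ∑ i, (m *ᵥ φ.ca f x) i • e i + ∑ i, (m' *ᵥ φ.cc e x) i • f i + rest φ e f x
  map_add' x y := by
    have h1 : φ.ca f (x + y) = φ.ca f x + φ.ca f y := funext fun i => by simp [Form.ca, mul_add]
    have h2 : φ.cc e (x + y) = φ.cc e x + φ.cc e y := funext fun i => by simp [Form.cc]
    simp only [rest, h1, h2, mulVec_add, Pi.add_apply, add_smul, Finset.sum_add_distrib]
    abel
  map_smul' c x := by
    have h1 : φ.ca f (c • x) = c • φ.ca f x := funext fun i => by simp [Form.ca, mul_left_comm]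
    have h2 : φ.cc e (c • x) = c • φ.cc e x := funext fun i => by simp [Form.cc]
    simp only [rest, h1, h2, mulVec_smul, Pi.smul_apply, smul_eq_mul, mul_smul, ← Finset.smul_sum,
      RingHom.id_apply, smul_add, smul_sub]

lemma lv_apply (m m' : Matrix ι ι F) (x : V) : lv φ e f m m' x =
    ∑ i, (m *ᵥ φ.ca f x) i • e i + ∑ i, (m' *ᵥ φ.cc e x) i • f i + rest φ e f x := rfl

lemma lv_one : lv φ e f 1 1 = 1 := LinearMap.ext fun x => by simp [lv_apply, rest]

/-- the contragredient matrix -/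
def dual (g : SpecialLinearGroup ι F) : Matrix ι ι F := (g⁻¹.1ᵀ).map φ.σ

variable {φ e f}

lemma dual_dot (g : SpecialLinearGroup ι F) (a c : ι → F) :
    (fun i => φ.σ ((g.1 *ᵥ a) i)) ⬝ᵥ (dual φ g *ᵥ c) = (fun i => φ.σ (a i)) ⬝ᵥ c := by
  have h1 : (fun i => φ.σ ((g.1 *ᵥ a) i)) = g.1.map φ.σ *ᵥ fun i => φ.σ (a i) := funext fun i =>
    RingHom.map_mulVec (φ.σ : F →+* F) g.1 a i
  have h2 : (g.1.map φ.σ)ᵀ * dual φ g = 1 := by
    rw [dual, ← transpose_map, ← Matrix.map_mul, ← transpose_mul,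
      show g⁻¹.1 * g.1 = 1 from congrArg Subtype.val (inv_mul_cancel g)]
    simp
  rw [h1, ← vecMul_transpose, ← dotProduct_mulVec, mulVec_mulVec, h2, one_mulVec]

lemma dot_σ (a c : ι → F) : (fun i => φ.σ (c i)) ⬝ᵥ a = φ.σ ((fun i => φ.σ (a i)) ⬝ᵥ c) := by
  simp [dotProduct, mul_comm]

variable (h : φ.Frame e f)
include h

lemma rest_perp (x : V) (a c : ι → F) :
    φ.b (∑ i, a i • e i + ∑ i, c i • f i) (rest φ e f x) = 0 :=
  h.rest_mem x _ (Form.Frame.comb_mem a c)

lemma coords (a c : ι → F) (x : V) :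
    φ.ca f (∑ i, a i • e i + ∑ i, c i • f i + rest φ e f x) = a ∧
      φ.cc e (∑ i, a i • e i + ∑ i, c i • f i + rest φ e f x) = c := by
  obtain ⟨h1, h2⟩ := Form.mem_perp_FS.1 (h.rest_mem x)
  refine ⟨funext fun j => ?_, funext fun j => ?_⟩
  · rw [Form.ca, map_add, rest, h2]
    simp [h.fe, h.ff, mul_comm _ φ.ε]
  · rw [Form.cc, map_add, rest, h1]
    simp [h.ee, h.ef]

lemma lv_mul (m m' n n' : Matrix ι ι F) :
    lv φ e f (m * n) (m' * n') = lv φ e f m m' * lv φ e f n n' := LinearMap.ext fun x => by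
  obtain ⟨h1, h2⟩ := coords h (n *ᵥ φ.ca f x) (n' *ᵥ φ.cc e x) x
  rw [Module.End.mul_apply, lv_apply, lv_apply, lv_apply, h1, h2, mulVec_mulVec, mulVec_mulVec,
    rest.eq_1 φ e f (_ + _), h1, h2, add_sub_cancel_left]

/-- the Levi homomorphism -/
def levi : SpecialLinearGroup ι F →* End F V where
  toFun g := lv φ e f g.1 (dual φ g)
  map_one' := by simpa [dual] using lv_one φ e f
  map_mul' g k := by
    rw [← lv_mul h, dual, dual, dual, ← Matrix.map_mul, ← transpose_mul, _root_.mul_inv_rev]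
    rfl

lemma levi_b (g : SpecialLinearGroup ι F) (x y : V) : φ.b (levi h g x) (levi h g y) = φ.b x y := by
  have key : ∀ a c a' c' : ι → F, φ.b (∑ i, a i • e i + ∑ i, c i • f i + rest φ e f x)
      (∑ i, a' i • e i + ∑ i, c' i • f i + rest φ e f y) = (fun i => φ.σ (a i)) ⬝ᵥ c' +
        φ.ε * φ.σ ((fun i => φ.σ (a' i)) ⬝ᵥ c) + φ.b (rest φ e f x) (rest φ e f y) := by
    intro a c a' c'
    rw [map_add φ.b, LinearMap.add_apply, map_add, map_add (φ.b (rest φ e f x)), rest_perp h,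
      φ.b_symm_zero (rest_perp h x a' c'), h.b_comb, dot_σ a' c, add_zero, zero_add]
  show φ.b (lv φ e f _ _ x) (lv φ e f _ _ y) = _
  rw [lv_apply, lv_apply, key, dual_dot, dual_dot, ← key]
  simp [rest]

lemma levi_Q (g : SpecialLinearGroup ι F) (x : V) : φ.Q (levi h g x) = φ.Q x := by
  have key : ∀ a c : ι → F, φ.Q (∑ i, a i • e i + ∑ i, c i • f i + rest φ e f x) =
      φ.md ((fun i => φ.σ (a i)) ⬝ᵥ c) + φ.Q (rest φ e f x) := by
    intro a c
    rw [φ.Q_add, rest_perp h, h.Q_comb, map_zero, add_zero]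
  show φ.Q (lv φ e f _ _ x) = _
  rw [lv_apply, key, dual_dot, ← key]
  simp [rest]

lemma levi_center {g : SpecialLinearGroup ι F} {c : F} (hc : ∀ i, levi h g (e i) = c • e i) :
    g ∈ center (SpecialLinearGroup ι F) := by
  have h0 : ∀ (c : F) i, φ.ca f (c • e i) = Pi.single i c := fun c i => funext fun j => by
    by_cases hj : j = i <;> simp [Form.ca, h.fe, hj, mul_comm _ φ.ε]
  have h1 : g.1 = c • (1 : Matrix ι ι F) := Matrix.ext fun j i => by
    have := (coords h (g.1 *ᵥ φ.ca f (e i)) (dual φ g *ᵥ φ.cc e (e i)) (e i)).1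
    rw [← lv_apply, show lv φ e f _ _ (e i) = _ from hc i, h0, ← one_smul F (e i), h0] at this
    have := congrFun this j
    by_cases hj : j = i <;> simpa [hj, eq_comm] using this
  exact mem_center_iff.2 fun k => Subtype.ext (by simp [h1])

omit h in
lemma lv_comm {η : End F V} (h1 : ∀ i, η (e i) = e i) (h2 : ∀ i, η (f i) = 0)
    (h3 : ∀ i x, φ.b (e i) (η x) = 0) (h4 : ∀ i x, φ.b (f i) (η x) = φ.b (f i) x)
    (m m' : Matrix ι ι F) : lv φ e f m m' * η = η * lv φ e f m m' := LinearMap.ext fun x => by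
  have e1 : φ.ca f (η x) = φ.ca f x := funext fun i => by simp [Form.ca, h4]
  have e2 : φ.cc e (η x) = 0 := funext fun i => h3 i x
  simp [lv_apply, rest, e1, e2, h1, h2]

end levi

section core

variable {p : ℕ} [Fact p.Prime] {V : Type} [AddCommGroup V] [Module (ZMod p) V] [Finite V]
  {S : FS p V} {F : Type} [Field F] [Finite F] [Module F V] {K Z : S.NR} {φ : Form F V}
  {τ : F →+ ZMod p}

theorem aff_core (h : S.Real K φ τ) {k : ℕ} (hk : 3 ≤ k) {e f : Fin k → V} (hf : φ.Frame e f)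
    (h1 : ∀ m m', S.up F (lv φ e f m m') ∈ S.cent Z 1)
    (h2 : ∀ z ∈ Z, ∃ c : F, ∀ i, z (e i) = c • e i) :
    ∃ ψ : SpecialLinearGroup (Fin k) F →* S.Eˣ, (∀ g, ψ g ∈ S.om (S.cent Z 1)) ∧
      ∀ g, (ψ g).1 ∈ Z → g ∈ center _ := by
  let ψ := ((S.up F).toMonoidHom.comp (levi hf)).toHomUnits
  have hψ : (⊤ : Subgroup _).map ψ ≤ S.iso (S.cent Z 1) := by
    rintro _ ⟨g, -, rfl⟩
    exact FS.mem_iso.2 ⟨sub_mem (h1 _ _) (FS.one_mem_cent Z), FS.uni_of_β fun x y => by
      rw [h.β, h.β]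
      exact congrArg τ (levi_b hf g x y), fun v => h.q_of_Q (levi_Q hf g v)⟩
  refine ⟨ψ, fun g => commutator_mono hψ hψ ?_, fun g hg => ?_⟩
  · rw [← map_commutator]
    exact mem_map_of_mem _ ((sl_perf hk).ge (mem_top g))
  · obtain ⟨c, hc⟩ := h2 _ hg
    exact levi_center hf hc

theorem le_finrank (h : S.Real K φ τ) (hZ : S.Scal Z 1) (hK : K ≤ Z) {n : ℕ} (hn : S.Rank Z 1 n) :
    n ≤ finrank F V := by
  have := hZ.toLoc.nontrivial
  have := FS.Real.fd (F := F) (V := V)
  have h1 : Nat.card (LinearMap.range (1 : S.E)) = Nat.card V := by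
    rw [show LinearMap.range (1 : S.E) = ⊤ from LinearMap.range_id]
    exact Nat.card_congr Submodule.topEquiv.toEquiv
  rw [FS.Rank, h1, Module.natCard_eq_pow_finrank (K := F)] at hn
  refine (Nat.pow_le_pow_iff_right (Finite.one_lt_card (α := F))).1 (hn ▸ Nat.pow_le_pow_left ?_ n)
  rw [← h.card_K]
  exact Nat.card_le_card_of_injective (fun x : K => (⟨x.1, hK x.2⟩ : Z))
    fun _ _ e => Subtype.ext (congrArg (fun y : Z => y.1) e)

theorem ts_range (h : S.Real (S.sym Z) φ τ) (hZ : S.Scal Z 1) {η : S.E} (s : S.Spl Z 1 η)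
    {a : End F V} (ha : η = S.up F a) : φ.TS (LinearMap.range a) := by
  have h0 : ∀ x y, φ.b (η x) (η y) = 0 := fun x y => by
    rw [h.adj (ha ▸ h.up_mem a), ← Module.End.mul_apply, s.mul' hZ]
    simp
  subst ha
  refine ⟨?_, ?_⟩
  · rintro _ ⟨x, rfl⟩
    refine h.sing.1 fun z hz => ⟨?_, ?_⟩
    · have := hZ.compat _ (mul_mem hz.1 s.mem) 0 (zero_mem _) (by
        rw [FS.st_mul, mul_assoc, ← mul_assoc (S.up F a), s.mul]
        simp) x
      simpa using this
    · obtain ⟨c, rfl⟩ := h.mem_K.1 hz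
      have := h0 x x
      simp only [FS.up_apply] at this
      simp [h.β, this]
  · rintro _ ⟨x, rfl⟩ _ ⟨y, rfl⟩
    exact h0 y x

end core

theorem aff : AFF 12 := by
  intro p _ V _ _ _ S Z n hZ hn hc
  have := hZ.toLoc.nontrivial
  obtain hf | ⟨η, s⟩ := hZ.cases
  · obtain ⟨F, _, _, _, φ, τ, h⟩ := FS.exists_real hZ hf
    have := FS.Real.fd (F := F) (V := V)
    have := le_finrank h hZ le_rfl hn
    obtain ⟨e, f, hf, -⟩ := φ.nd_top.exists_frame_of_le (k := n / 4) (by rw [finrank_top]; omega)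
    obtain ⟨ψ, h1, h2⟩ := aff_core (Z := Z) h (by omega) hf (fun _ _ => h.up_mem _) fun z hz =>
      ((h.scal z).1 hz).imp fun c hc i => hc _
    exact ⟨F, _, ‹_›, h.charP, ψ, h.card_K ▸ hZ.card_sym_le, h1, h2⟩
  obtain ⟨F, _, _, _, φ, τ, h⟩ := FS.exists_real hZ.sym_scal fun _ hx h0 => hZ.inv_sym hx h0
  have := FS.Real.fd (F := F) (V := V)
  have d0 := le_finrank h hZ (FS.sym_le Z) hn
  have hm : ∀ z ∈ Z, z ∈ S.cent (S.sym Z) 1 := fun z hz =>
    FS.mem_cent_one.2 fun d hd => (hd.2.2 z hz).symm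
  obtain ⟨a, ha⟩ := h.mem_cent'.1 (hm _ s.mem)
  obtain ⟨a', ha'⟩ := h.mem_cent'.1 (hm _ (s.star hZ).mem)
  have t1 := ts_range h hZ s ha
  have t2 := ts_range h hZ (s.star hZ) ha'
  have hs : ∀ x, η x + S.st η x = x := fun x => congrArg (fun y : S.E => y x) s.add
  have e2 : ∀ x, a' x = S.st η x := fun x => by rw [ha']; rfl
  have e5 : ∀ x, a x = η x := fun x => by rw [ha]; rfl
  have d1 := t2.two_mul_le
  have d2 := Submodule.finrank_add_le_finrank_add_finrank (LinearMap.range a) (LinearMap.range a')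
  rw [show LinearMap.range a ⊔ LinearMap.range a' = ⊤ from eq_top_iff.2 fun x _ =>
    Submodule.mem_sup.2 ⟨_, ⟨x, rfl⟩, _, ⟨x, rfl⟩, by rw [e2, e5, hs]⟩, finrank_top] at d2
  obtain ⟨e, f, hf, he, -⟩ := φ.nd_top.exists_frame_ts t1 le_top
  have e1 : ∀ i, η (e i) = e i := fun i => by
    obtain ⟨x, hx⟩ := he.le (Submodule.subset_span ⟨i, rfl⟩)
    rw [← hx, e5]
    exact congrArg (fun y : S.E => y x) (s.idem hZ)
  have hf' : φ.Frame e fun i => a' (f i) := ⟨hf.Qe, fun i => t2.1 _ ⟨_, rfl⟩, hf.ee,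
    fun i j => t2.b_zero ⟨_, rfl⟩ ⟨_, rfl⟩, fun i j => by rw [e2, ← h.adj (hm _ s.mem), e1, hf.ef]⟩
  have hk : n / 4 ≤ finrank F (LinearMap.range a) := by omega
  have e3 : ∀ i, S.st η (e i) = 0 := fun i => by simpa [e1] using hs (e i)
  have e4 : ∀ x, η (S.st η x) = 0 := fun x => congrArg (fun y : S.E => y x) s.mul
  refine ⟨F, _, ‹_›, h.charP, (aff_core (Z := Z) h (by omega)
    (hf'.comp (Fin.castLE hk) (Fin.castLE_injective hk)) (fun m m' => ?_) fun z hz => ?_).imp
      fun ψ hψ => ⟨h.card_K.le, hψ⟩⟩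
  · have e6 : ∀ x : End F V, x * a = a * x → S.up F x ∈ S.cent Z 1 := fun x hx => by
      have e7 : S.up F x * η = η * S.up F x := by rw [ha, ← map_mul, hx, map_mul]
      refine FS.mem_cent_one.2 fun z hz => ?_
      obtain ⟨b, hb, b', hb', rfl⟩ := s.decomp hZ hz
      have e8 := FS.mem_cent_one.1 (h.up_mem x)
      rw [eq_sub_of_add_eq' s.add]
      exact (((Commute.mul_right (e8 b hb) e7).add_right
        (Commute.mul_right (e8 b' hb') ((Commute.one_right _).sub_right e7))) :)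
    refine e6 _ (lv_comm (fun i => (e5 _).trans (e1 _)) (fun i => ?_) (fun i x => ?_)
      (fun i x => ?_) m m')
    · simp [e5, e2, e4]
    · simp [e5, h.adj' (hm _ s.mem), e3]
    · have : ∀ x, S.st η (S.st η x) = S.st η x := fun x =>
        congrArg (fun y : S.E => y x) ((s.star hZ).idem hZ)
      simp [e5, e2, h.adj' (hm _ s.mem), this]
  · obtain ⟨b, hb, b', -, rfl⟩ := s.decomp hZ hz
    obtain ⟨c, rfl⟩ := h.mem_K.1 hb
    exact ⟨c, fun i => by simp [e1, e3]⟩

theorem cross_of {c : ℕ} (hB : BAS c) : Cross := cross hB aff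

end Vale.Agent.P183CX
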