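import Vale.Agent.P183CX.Gam
import Vale.Agent.P183LT.Key
import Vale.Agent.P183AL.Tr

/-!
Transfer of the linear width steps to abstract groups with a classical model.
-/

namespace Vale.Agent.P183NK

open Subgroup Vale.Agent.P183A Vale.Agent.P183AL
open scoped commutatorElement

namespace Model

variable {G : Type} [Group G] {T : Subgroup G}

/-- A model of `T` as an abstract group is a model of `T` as a subgroup. -/
def lift (M : Model (⊤ : Subgroup T)) : Model T where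
  p := M.p
  V := M.V
  S := M.S
  Z := M.Z
  scal := M.scal
  n := M.n
  rank := M.rank
  θ := T.subtype.comp M.θ
  range := by rw [MonoidHom.range_comp, M.range, ← MonoidHom.range_eq_map, range_subtype]
  ker := fun g => by rw [← M.ker g]; simp

variable (M : Model T)

theorem θ_mem (ω : M.Ω) : M.θ ω ∈ T := M.range.le ⟨ω, rfl⟩

theorem exists_θ {t : G} (ht : t ∈ T) : ∃ ω, M.θ ω = t := M.range.ge ht

theorem Ω_mem {ω : M.S.Eˣ} (h : ω ∈ M.Ω) : ω.1 ∈ M.A :=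
  FS.iso_mem (FS.one_mem_cent _) (FS.om_le_iso _ h)

/-- The pairs `(g, γ)` such that the similitude `γ` acts on `Ω` as `g` acts on `T`. -/
def PP : Subgroup (G × M.S.Eˣ) where
  carrier := {x | x.2 ∈ M.S.gam M.Z ∧
    ∀ ω ω' : M.Ω, ω'.1 = x.2 * ω.1 * x.2⁻¹ → M.θ ω' = x.1 * M.θ ω * x.1⁻¹}
  one_mem' := ⟨one_mem _, fun ω ω' e => by
    rw [show ω' = ω from Subtype.ext (by simpa using e)]
    simp⟩
  mul_mem' := fun {x y} hx hy => ⟨mul_mem hx.1 hy.1, fun ω ω' e => by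
    rw [hx.2 ⟨_, FS.nm_gam_om M.scal _ hy.1 _ ω.2⟩ ω' (by rw [e]; simp [mul_assoc]),
      hy.2 ω _ rfl]
    simp [mul_assoc]⟩
  inv_mem' := fun {x} hx => ⟨inv_mem hx.1, fun ω ω' e => by
    rw [hx.2 ω' ω (by rw [e]; simp [mul_assoc])]
    simp [mul_assoc]⟩

theorem graph_mem (ω : M.Ω) : (M.θ ω, ω.1) ∈ M.PP := ⟨FS.om_le_gam M.scal ω.2, fun a b e => by
  rw [show b = ω * a * ω⁻¹ from Subtype.ext e]
  simp⟩

theorem sca_mem {γ : M.S.Eˣ} (h : γ ∈ M.S.sca M.Z) : ((1 : G), γ) ∈ M.PP :=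
  ⟨FS.sca_le_gam M.scal h, fun a b e => by
    have : γ * a.1 = a.1 * γ := Units.ext (FS.sca_comm M.scal h (M.Ω_mem a.2))
    rw [show b = a from Subtype.ext (by rw [e]; simp [this])]
    simp⟩

theorem cent_of_mem {g : G} {ω : M.Ω} (h : (g, ω.1) ∈ M.PP) :
    (M.θ ω)⁻¹ * g ∈ centralizer (T : Set G) := by
  have h1 := M.PP.mul_mem (M.PP.inv_mem (M.graph_mem ω)) h
  refine mem_centralizer_iff.2 fun t ht => ?_
  obtain ⟨a, rfl⟩ := M.exists_θ ht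
  have := h1.2 a a (by simp)
  exact eq_mul_inv_iff_mul_eq.1 this

/-- The graph of `θ`. -/
def graph : Subgroup (G × M.S.Eˣ) := (M.θ.prod M.Ω.subtype).range

theorem nm_graph : Nm M.PP M.graph := by
  rintro x hx _ ⟨ω, rfl⟩
  exact ⟨⟨_, FS.nm_gam_om M.scal _ hx.1 _ ω.2⟩, Prod.ext (hx.2 ω _ rfl) rfl⟩

/-- The derived group of the preimage of `θ X`. -/
theorem hat_eq {X : Subgroup M.S.Eˣ} {Y : Subgroup G} (h1 : X ≤ M.Ω)
    (h2 : ∀ ω : M.Ω, ω.1 ∈ X → M.θ ω ∈ Y) (h3 : ∀ y ∈ Y, ∃ ω : M.Ω, ω.1 ∈ X ∧ M.θ ω = y) :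
    M.hat Y = ⁅X, X⁆ := by
  have h4 : X ≤ (Y.comap M.θ).map M.Ω.subtype := fun x hx => ⟨⟨x, h1 hx⟩, h2 _ hx, rfl⟩
  refine le_antisymm (commutator_le.2 ?_) (commutator_mono h4 h4)
  have key : ∀ a : M.Ω, M.θ a ∈ Y → ∃ x ∈ X, ∃ c : M.S.Eˣ, a.1 = x * c ∧
      ∀ b ∈ M.Ω, c * b = b * c := fun a ha => by
    obtain ⟨ω, k1, k2⟩ := h3 _ ha
    refine ⟨ω, k1, (ω⁻¹ * a).1, by simp, fun b hb => Units.ext ?_⟩
    exact ((M.Ω_mem hb).2.2 _ ((M.ker _).1 (by rw [map_mul, map_inv, k2, inv_mul_cancel]))).symm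
  rintro _ ⟨a, ha, rfl⟩ _ ⟨b, hb, rfl⟩
  obtain ⟨x, hx, c, e1, hc⟩ := key a ha
  obtain ⟨y, hy, c', e2, hc'⟩ := key b hb
  have e3 : ⁅a.1, b.1⁆ = ⁅x, y⁆ := by
    have k1 : c * b.1 * c⁻¹ = b.1 := by rw [hc b b.2, mul_inv_cancel_right]
    have k2 : c' * x⁻¹ * c'⁻¹ = x⁻¹ := by rw [hc' _ (inv_mem (h1 hx)), mul_inv_cancel_right]
    calc ⁅a.1, b.1⁆ = x * (c * b.1 * c⁻¹) * x⁻¹ * b.1⁻¹ := by
          rw [commutatorElement_def, e1]; group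
      _ = x * y * (c' * x⁻¹ * c'⁻¹) * y⁻¹ := by rw [k1, e2]; group
      _ = _ := by rw [k2, commutatorElement_def]
  exact e3 ▸ commutator_mem_commutator hx hy

theorem hat_top : M.hat T = ⁅M.Ω, M.Ω⁆ :=
  M.hat_eq le_rfl (fun ω _ => M.θ_mem ω) fun _ hy => let ⟨ω, e⟩ := M.exists_θ hy; ⟨ω, ω.2, e⟩

/-- The Schreier property. -/
theorem solvable [T.Normal] (hL : M.Lifts) (hC : centralizer (T : Set G) = ⊥) :
    Group.IsSolvable (G ⧸ T) := by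
  have h0 : M.PP.map (MonoidHom.fst _ _) = ⊤ := top_le_iff.1 fun g _ =>
    let ⟨γ, h1, h2⟩ := hL g fun t ht => Normal.conj_mem inferInstance t ht g
    ⟨(g, γ), ⟨h1, h2⟩, rfl⟩
  have h1 : M.PP.map (MonoidHom.snd _ _) ≤ M.S.gam M.Z := by
    rintro _ ⟨x, hx, rfl⟩
    exact hx.1
  have h2 : derivedSeries G 3 ≤ T := by
    simp only [derivedSeries_succ, derivedSeries_zero, ← h0, ← map_commutator]
    rintro _ ⟨x, hx, rfl⟩
    have h3 := mem_map_of_mem (MonoidHom.snd _ _) hx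
    simp only [map_commutator] at h3
    have h4 := (commutator_mono (commutator_mono h1 h1) (commutator_mono h1 h1)).trans
      (FS.comm2_gam_le M.scal)
    have h5 : x.2 ∈ M.Ω := commutator_mono h4 h4 h3
    have h6 := M.cent_of_mem (g := x.1) (ω := ⟨x.2, h5⟩)
      (commutator_le_self _ (commutator_le_self _ (commutator_le_self _ hx)))
    rw [hC, mem_bot, inv_mul_eq_one] at h6
    exact show x.1 ∈ T from h6 ▸ M.θ_mem _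
  refine ⟨3, ?_⟩
  rw [← map_derivedSeries_eq (QuotientGroup.mk'_surjective T), Subgroup.map_eq_bot_iff,
    QuotientGroup.ker_mk']
  exact h2

end Model

/-- Transfer of an interval to the linear configuration, and back. -/
theorem transfer {G : Type} [Group G] [Finite G] {H a z : Subgroup G} (M : Model (EE H z))
    (hL : M.Lifts) (hp : M.Ω ≤ ⁅M.Ω, M.Ω⁆) (hh : Hairy H a z) {m k : ℕ} (hg : Good m k a z) :
    ∃ H' a' b' : Subgroup M.S.Eˣ, M.S.LC M.Z M.n H' b' ∧ Hairy H' a' b' ∧ Good m k a' b' ∧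
      ∀ u', a' ≤ u' → ∀ k', Good m k' u' b' → ∃ u, a ≤ u ∧ Good m k' u z ∧
        M.hat (EE H u) = EE H' u' ∧ (M.S.ASL M.Z H' u' → AS H (EE H z) u) := by
  have az := hg.lt.le
  have Hz := hh.le.trans az
  have nz := hh.nomod az le_rfl
  let P : Subgroup (G × M.S.Eˣ) := M.PP ⊓ z.comap (MonoidHom.fst _ _)
  let Q : Subgroup (G × M.S.Eˣ) := M.PP ⊓ H.comap (MonoidHom.fst _ _)
  let π₁ : P →* G := (MonoidHom.fst _ _).comp P.subtype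
  let π₂ : P →* M.S.Eˣ := (MonoidHom.snd _ _).comp P.subtype
  have QP : Q ≤ P := inf_le_inf_left _ (comap_mono Hz)
  have k1 : ∀ x : P, π₁ x = 1 → x.1 ∈ Q := fun x e => ⟨x.2.1, show π₁ x ∈ H from e ▸ H.one_mem⟩
  have k2 : ∀ x : P, π₂ x = 1 → x.1 ∈ Q := fun x e => ⟨x.2.1, cent_EE_le nz ⟨x.2.2, by
    simpa using M.cent_of_mem (g := x.1.1) (ω := 1) (by
      rw [show ((1 : M.Ω) : M.S.Eˣ) = x.1.2 from e.symm]; exact x.2.1)⟩⟩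
  have lf : ∀ g ∈ z, ∃ x : P, π₁ x = g := fun g hg =>
    let ⟨γ, h1, h2⟩ := hL g (nm_EE H z g hg)
    ⟨⟨(g, γ), ⟨h1, h2⟩, hg⟩, rfl⟩
  have e1 : img π₁ Q = H := le_antisymm (by rintro _ ⟨x, hx, rfl⟩; exact hx.2) fun g hg =>
    let ⟨x, e⟩ := lf g (Hz hg)
    ⟨x, ⟨x.2.1, show π₁ x ∈ H from e ▸ hg⟩, e⟩
  have e2 : img π₁ P = z := le_antisymm (by rintro _ ⟨x, -, rfl⟩; exact x.2.2) fun g hg =>
    let ⟨x, e⟩ := lf g hg
    ⟨x, x.2, e⟩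
  have c1 := cor_img π₁ QP k1
  rw [e1, e2] at c1
  have c2 := cor_img π₂ QP k2
  have nP : NoMod Q P := c1.symm.nomod nz
  have gP : M.graph ≤ P := by
    rintro _ ⟨ω, rfl⟩
    exact ⟨M.graph_mem ω, EE_le nz (M.θ_mem ω)⟩
  have eg : EE Q P ≤ M.graph := EE_le_of gP (M.nm_graph.mono inf_le_left) fun k =>
    EE_nle nz fun t ht => let ⟨ω, e⟩ := M.exists_θ ht; e ▸ (k ⟨ω, rfl⟩).2
  have key : ∀ K, K ≤ P → NoMod Q K → EE (img π₂ Q) (img π₂ K) ≤ M.Ω ∧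
      (∀ ω : M.Ω, ω.1 ∈ EE (img π₂ Q) (img π₂ K) → M.θ ω ∈ EE H (img π₁ K)) ∧
      ∀ y ∈ EE H (img π₁ K), ∃ ω : M.Ω, ω.1 ∈ EE (img π₂ Q) (img π₂ K) ∧ M.θ ω = y := by
    intro K hK hn
    have h1 := (EE_mono hn nP hK).trans eg
    have h2 := EE_img π₁ hK k1 hn
    rw [e1] at h2
    rw [EE_img π₂ hK k2 hn, h2]
    refine ⟨?_, ?_, ?_⟩
    · rintro _ ⟨x, hx, rfl⟩
      obtain ⟨ω, e⟩ := h1 hx
      exact (show ω.1 = π₂ x from congrArg Prod.snd e) ▸ ω.2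
    · rintro ω ⟨x, hx, e⟩
      obtain ⟨ω', e'⟩ := h1 hx
      obtain rfl : ω' = ω := Subtype.ext ((congrArg Prod.snd e').trans e)
      exact ⟨x, hx, (congrArg Prod.fst e').symm⟩
    · rintro _ ⟨x, hx, rfl⟩
      obtain ⟨ω, e⟩ := h1 hx
      exact ⟨ω, ⟨x, hx, (congrArg Prod.snd e).symm⟩, congrArg Prod.fst e⟩
  have top : EE (img π₂ Q) (img π₂ P) = M.Ω := by
    obtain ⟨h1, h2, h3⟩ := key P le_rfl nP
    rw [e2] at h2 h3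
    refine le_antisymm h1 (hp.trans ?_)
    rw [← M.hat_top, M.hat_eq h1 h2 h3]
    exact commutator_le_self _
  have ia : a ∈ Set.Icc H z := ⟨hh.le, az⟩
  have iz : z ∈ Set.Icc H z := ⟨Hz, le_rfl⟩
  have ia' := c1.gm a ia
  have h1 : Hairy Q (pre π₁ a) P := c1.symm.hairy az hh
  have h2 := c2.hairy ia'.2 h1
  refine ⟨img π₂ Q, img π₂ (pre π₁ a), img π₂ P, ⟨M.scal, M.rank, ?_, fun γ hγ =>
    ⟨⟨(1, γ), M.sca_mem hγ, z.one_mem⟩, ⟨M.sca_mem hγ, H.one_mem⟩, rfl⟩, top⟩, h2, ?_,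
    fun u' hu k' hg' => ?_⟩
  · rintro _ ⟨x, -, rfl⟩
    exact x.2.1.1
  · have := c1.symm.good ia iz hg
    rw [c1.symm.top Hz] at this
    exact c2.good ia' ⟨QP, le_rfl⟩ this
  have iu : u' ∈ Set.Icc (img π₂ Q) (img π₂ P) := ⟨h2.le.trans hu, hg'.lt.le⟩
  have iK := c2.gm u' iu
  have aK : pre π₁ a ≤ pre π₂ u' := (c2.gf _ ia').ge.trans (c2.gmono hu)
  have nK := h1.nomod aK iK.2
  have au : a ≤ img π₁ (pre π₂ u') := (c1.fg a ia).ge.trans (c1.fmono aK)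
  have uz := (c1.fm _ iK).2
  obtain ⟨h3, h4, h5⟩ := key _ iK.2 nK
  rw [c2.fg u' iu] at h3 h4 h5
  have nu' := h2.nomod hu iu.2
  refine ⟨img π₁ (pre π₂ u'), au, ?_, (M.hat_eq h3 h4 h5).trans (EE_comm nu'), fun hA => ?_⟩
  · have := c2.symm.good iu ⟨iu.1.trans iu.2, le_rfl⟩ hg'
    rw [c2.symm.top (iu.1.trans iu.2)] at this
    have := c1.good iK ⟨QP, le_rfl⟩ this
    rwa [e2] at this
  have ks : ∀ ω : M.Ω, ω.1 ∈ M.S.sca M.Z → M.θ ω = 1 := fun ω h =>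
    (M.ker ω).2 ((FS.mem_sca M.scal.mem).1 h)
  refine hh.as_of au uz (EE_le nz) (P183LT.simple_of_nl (EE_ne_bot (hh.nomod au uz))
    fun W hW => ?_) (le_bot_iff.1 fun t ht => ?_)
  · refine (hA.2 (EE (img π₂ Q) u' ⊓ (W.comap M.θ).map M.Ω.subtype) inf_le_left ?_).imp
      (fun k => le_bot_iff.1 fun w hw => ?_) fun k => le_antisymm hW.1 fun y hy => ?_
    · rintro g hg _ ⟨hx, ω, hω, rfl⟩
      refine ⟨Nm.of_le le_rfl g hg _ hx, ⟨g, h3 hg⟩ * ω * ⟨g, h3 hg⟩⁻¹, ?_, rfl⟩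
      simpa using hW.2 _ (h4 ⟨g, h3 hg⟩ hg) _ hω
    · obtain ⟨ω, k1, rfl⟩ := h5 w (hW.1 hw)
      exact ks ω (k ⟨k1, ω, hw, rfl⟩)
    · obtain ⟨ω, k1, rfl⟩ := h5 y hy
      obtain ⟨ω', k2, e⟩ := (k.ge k1).2
      exact (Subtype.ext e : ω' = ω) ▸ k2
  · obtain ⟨ω, rfl⟩ := M.exists_θ ht.2
    refine ks ω (hA.1 ⟨le_CC (R := ((CC H (img π₁ (pre π₂ u'))).comap M.θ).map M.Ω.subtype)
      ?_ ?_ ⟨ω, ht.1, rfl⟩, ω.2⟩)
    · rintro _ ⟨ω, hω, rfl⟩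
      exact ⟨⟨_, gP ⟨ω, rfl⟩⟩, ⟨M.graph_mem ω, CC_le H _ hω⟩, rfl⟩
    · rintro γ hγ _ ⟨ω, hω, rfl⟩
      obtain ⟨x, -, rfl⟩ := iu.2 hγ
      refine ⟨⟨_, FS.nm_gam_om M.scal _ x.2.1.1 _ ω.2⟩, ?_, rfl⟩
      have := nm_CC H (img π₁ (pre π₂ u')) (π₁ x) (mem_img.2 ⟨x, mem_pre.2 hγ, rfl⟩) _ hω
      exact (congrArg (· ∈ CC H (img π₁ (pre π₂ u')))
        (x.2.1.2 ω ⟨_, FS.nm_gam_om M.scal _ x.2.1.1 _ ω.2⟩ rfl)).mpr this

theorem Model.perfect {c c' : ℕ} (h1 : N1 c) (h2 : BAS c') {G : Type} [Group G] {T : Subgroup G}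
    (M : Model T) (hc : c ≤ M.n) (hc' : c' ≤ M.n) : M.Ω ≤ ⁅M.Ω, M.Ω⁆ :=
  let ⟨a, _, b, d⟩ := h2 M.p M.V M.S M.Z 1 M.n M.scal M.rank
  (h1 M.p M.V M.S _ 1 M.n a (d hc') b hc).1

theorem wcl {c c' : ℕ} (h1 : N1 c) (h2 : BAS c') : WCl := by
  rintro ⟨d1, m1, c1, w1⟩ ⟨d2, m2, c2, w2⟩ ⟨d3, m3, c3, w3⟩ ⟨d4, m4, c4, w4⟩ ⟨d5, hL⟩
  refine ⟨c + c' + d1 + d2 + d3 + d4 + d5, fun d hd => ⟨?_, m1 + m2 + m3 + m4, c4 + c3 + c2 + c1,
    ?_⟩⟩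
  · rintro G _ _ T _ - hC ⟨M, hM⟩
    exact M.lift.solvable (hL G T M.lift (show d5 < M.n by omega)) hC
  rintro G _ _ H a z m k hm hh hg - ⟨M₀, hM⟩
  obtain ⟨M, hM⟩ : ∃ M : Model (EE H z), d < M.n := ⟨M₀.lift, hM⟩
  obtain ⟨H', a', b', lc, hh', hg', back⟩ := transfer M (hL G _ M (by omega))
    (M.perfect h1 h2 (by omega) (by omega)) hh hg
  obtain ⟨a1, l1, g1, p1⟩ := w1 M.p M.V M.S M.Z M.n H' a' b' m (k + c4 + c3 + c2) lc (by omega)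
    (by omega) hh' (by simpa only [add_assoc] using hg') trivial
  obtain ⟨a2, l2, g2, p2⟩ := w2 M.p M.V M.S M.Z M.n H' a1 b' m (k + c4 + c3) lc (by omega)
    (by omega) (hh'.up l1) g1 p1
  obtain ⟨a3, l3, g3, p3⟩ := w3 M.p M.V M.S M.Z M.n H' a2 b' m (k + c4) lc (by omega)
    (by omega) (hh'.up (l1.trans l2)) g2 ⟨p1.mono l2, p2⟩
  have l := l1.trans (l2.trans l3)
  obtain ⟨a4, l4, g4, p4⟩ := w4 M.p M.V M.S M.Z M.n H' a3 b' m k lc (by omega)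
    (by omega) (hh'.up l) g3 ⟨p1.mono (l2.trans l3), p3⟩
  obtain ⟨u, hu, gu, e, hA⟩ := back a4 (l.trans l4) k g4
  refine ⟨u, hu, gu, ⟨M, hM, ?_⟩, hA p4⟩
  show M.S.Ful M.Z (M.hat (EE H u))
  rw [e]
  exact p3.mono (EE_mono (hh'.nomod l g3.lt.le) (hh'.nomod (l.trans l4) g4.lt.le) l4)
    (lc.EE_le_iso hh' (l.trans l4) g4.lt.le)

end Vale.Agent.P183NK
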